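import Mathlib

namespace Vale.Agent.P365

open MeasureTheory ProbabilityTheory Complex Filter
open scoped ComplexConjugate ENNReal

noncomputable section

/-- The standard Cauchy law. -/
abbrev cau : Measure ℝ := cauchyMeasure 0 1

/-- Cayley transform; uniform on the unit circle under the Cauchy law. -/
def zeta (t : ℝ) : ℂ := ((t : ℂ) - I) / ((t : ℂ) + I)

def xi0 (ρ ζ : ℂ) : ℂ := if ‖ρ‖ < 1 then (ζ - ρ)⁻¹ else 0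

/-- Scattering matrices as plain functions. -/
abbrev Mx (ι : Type) := ι → ι → ℂ

variable {ι : Type} [Fintype ι] [DecidableEq ι]

/-- Symmetric, supported on `U`, unitary on `U`. -/
structure US (U : Finset ι) (S : Mx ι) : Prop where
  symm : ∀ x y, S x y = S y x
  zero : ∀ x y, x ∉ U → S x y = 0
  unit : ∀ x y, ∑ z, S x z * conj (S y z) = if x = y ∧ x ∈ U then 1 else 0

def pp (S : Mx ι) (x y : ι) : ℝ := ‖S x y‖ ^ 2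
def pset (S : Mx ι) (x : ι) (A : Finset ι) : ℝ := ∑ y ∈ A, pp S x y
def sv (S : Mx ι) (v : ι) : ℝ := ∑ y ∈ Finset.univ.erase v, pp S v y
def xi (S : Mx ι) (v : ι) (t : ℝ) : ℂ := xi0 (S v v) (zeta t)

/-- Closing the probe at `v` with potential value `t`. -/
def cls (S : Mx ι) (v : ι) (t : ℝ) : Mx ι := fun x y =>
  if x = v ∨ y = v then 0 else S x y + xi S v t * S x v * S v y

def ee (S : Mx ι) (ψ : ι → ℝ) (x : ι) : ℝ := ∑ y, pp S x y * (ψ y - ψ x) ^ 2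
def jj (S : Mx ι) (ψ : ι → ℝ) (x : ι) : ℝ := ∑ y, pp S x y * (ψ y - ψ x)
def FF (S : Mx ι) (ψ : ι → ℝ) : ℝ := (∑ x, ee S ψ x) / 2
def BB (S : Mx ι) (φ ψ : ι → ℝ) : ℝ :=
  (∑ x, ∑ y, pp S x y * ((φ y - φ x) * (ψ y - ψ x))) / 2
def Th (S : Mx ι) (ψ : ι → ℝ) (x y : ι) : ℂ :=
  ∑ z, S x z * conj (S y z) * ((ψ z - ψ x : ℝ) : ℂ)
def MM (S : Mx ι) (ψ : ι → ℝ) (w : ι) : ℂ :=
  -∑ x, ∑ y, (S x w * ((ψ w - ψ x : ℝ) : ℂ)) * conj (S x y) * (S y w * ((ψ w - ψ y : ℝ) : ℂ))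
def NN (S : Mx ι) (Γ : Finset ι) : ℝ := ∑ w ∈ Γ, sv S w
def al (S : Mx ι) (Γ : Finset ι) (ψ : ι → ℝ) : ℝ := ∑ w ∈ Γ, ∑ x ∈ Γ, ‖Th S ψ w x‖ ^ 2
def qq (S : Mx ι) (Γ : Finset ι) (ψ : ι → ℝ) : ℝ := ∑ w ∈ Γ, ‖MM S ψ w‖ ^ 2 / sv S w
def ga (S : Mx ι) (Γ : Finset ι) (ψ : ι → ℝ) : ℝ := ∑ w ∈ Γ, jj S ψ w ^ 2 / sv S w
def yF (S : Mx ι) (ψ : ι → ℝ) (v : ι) : ℂ :=
  MM S ψ v - S v v * ((jj S ψ v ^ 2 / sv S v : ℝ) : ℂ)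
def nS (S : Mx ι) (v w : ι) : ℂ :=
  conj (S w w) * S w v ^ 2 + S v v * ((pp S w v ^ 2 / sv S v : ℝ) : ℂ)

def ind (A : Finset ι) : ι → ℝ := fun x => if x ∈ A then 1 else 0
def Osc (ψ : ι → ℝ) : Prop := ∀ x y, |ψ y - ψ x| ≤ 1
def Half (ψ : ι → ℝ) : Prop := ∀ x, |ψ x| ≤ 1 / 2

/-- One step average. -/
def Av (S : Mx ι) (v : ι) (Φ : Mx ι → ℝ) : ℝ := ∫ t, Φ (cls S v t) ∂cau

/-- Measurable and bounded on all scattering matrices. -/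
def Nice (Φ : Mx ι → ℝ) : Prop :=
  Measurable Φ ∧ ∃ M : ℝ, ∀ (U : Finset ι) (S : Mx ι), US U S → |Φ S| ≤ M

def Kgen (H : Matrix ι ι ℝ) (d : ι → ℂ) : Matrix ι ι ℂ :=
  H.map (fun r => (r : ℂ)) + Matrix.diagonal d
def dd (U : Finset ι) (c : ι → ℝ) : ι → ℂ := fun x => if x ∈ U then -I else (c x : ℂ)
def Kmat (H : Matrix ι ι ℝ) (U : Finset ι) (c : ι → ℝ) : Matrix ι ι ℂ := Kgen H (dd U c)
def Good (H : Matrix ι ι ℝ) (U : Finset ι) (c : ι → ℝ) : Prop := (Kmat H U c).det ≠ 0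
def Smat (H : Matrix ι ι ℝ) (U : Finset ι) (c : ι → ℝ) : Mx ι := fun x y =>
  if x ∈ U ∧ y ∈ U then (if x = y then 1 else 0) + 2 * I * (Kmat H U c)⁻¹ x y else 0

/-- Product of Cauchy laws. -/
def piC (ι : Type) [Fintype ι] : Measure (ι → ℝ) := Measure.pi fun _ => cau

instance piC_prob : IsProbabilityMeasure (piC ι) := by
  unfold piC; infer_instance

/-- Expectation of `Φ` of the scattering matrix after closing the probes in `R`. -/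
def ES (H : Matrix ι ι ℝ) (U : Finset ι) (c : ι → ℝ) (R : Finset ι) (Φ : Mx ι → ℝ) : ℝ :=
  ∫ ω, Φ (Smat H (U \ R) (R.piecewise ω c)) ∂(piC ι)

def wN (A N : ℝ) : ℝ := N / (N + A)
def gt (Λ d x : ℝ) : ℝ := x - d ^ 2 / (x + Λ)

def W2 (Λ d θ η1 η2 η3 η5 : ℝ) (Γ : Finset ι) (ψ : ι → ℝ) (S : Mx ι) : ℝ :=
  gt Λ d (FF S ψ) - η1 * max (al S Γ ψ - θ) 0 - η2 * qq S Γ ψ
    + η3 * (NN S Γ ^ 2 + 9 * NN S Γ) + η5 * (FF S ψ * NN S Γ + 8 * NN S Γ)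

def W1 (Λ d θ η1 C1 : ℝ) (Γ : Finset ι) (ψ : ι → ℝ) (S : Mx ι) : ℝ :=
  gt Λ d (FF S ψ) - η1 * (al S Γ ψ - 2 * θ - θ * (FF S ψ + 8)
    - 608 / C1 * ((FF S ψ + FF S (ind Γ)) ^ 2 * wN C1 (NN S Γ)))

/-- The strict decrease property with universal constants. -/
def ATP (θ lam Λ : ℝ) : Prop :=
  ∀ (ι : Type) [Fintype ι] [DecidableEq ι] (H : Matrix ι ι ℝ), H.IsSymm →
    ∀ (U : Finset ι) (c : ι → ℝ), Good H U c → ∀ Γ : Finset ι, Γ ⊆ U →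
    ∀ ψ : ι → ℝ, Half ψ → ∀ d : ℝ, Λ / 2 ≤ d →
      ES H U c Γ (fun S => gt Λ d (FF S ψ)) ≤
        gt Λ d (FF (Smat H U c) ψ) - lam * (al (Smat H U c) Γ ψ
          - θ * (1 + FF (Smat H U c) ψ + FF (Smat H U c) (ind Γ)) ^ 2)

/-- Sup distance in the plane lattice. -/
def rr (o p : ℤ × ℤ) : ℤ := max |p.1 - o.1| |p.2 - o.2|
def bal (pos : ι → ℤ × ℤ) (o : ℤ × ℤ) (n : ℤ) : Finset ι :=
  Finset.univ.filter fun x => rr o (pos x) ≤ n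
def rng (pos : ι → ℤ × ℤ) (o : ℤ × ℤ) (m n : ℤ) : Finset ι :=
  Finset.univ.filter fun x => m < rr o (pos x) ∧ rr o (pos x) ≤ n

structure Sys (μ : ℝ) (H : Matrix ι ι ℝ) (pos : ι → ℤ × ℤ) : Prop where
  mu_pos : 0 < μ
  symm : H.IsSymm
  inj : Function.Injective pos
  range : ∀ x y, H x y ≠ 0 → rr (pos x) (pos y) ≤ 1
  row : ∀ x, (∑ y ∈ Finset.univ.erase x, |H x y|) * Real.sinh μ ≤ 1 / 2

def Adm (H : Matrix ι ι ℝ) (U : Finset ι) (f : ι → ℝ) : Prop :=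
  ∀ x y, x ≠ y → H x y ≠ 0 → |f x - f y| ≤ 1 ∧ (x ∉ U ∨ y ∉ U → f x = f y)

def Lip (Φ : ℤ × ℤ → ℝ) : Prop := ∀ p q, |Φ q - Φ p| ≤ (rr p q : ℝ)

def cutf (pos : ι → ℤ × ℤ) (Φ : ℤ × ℤ → ℝ) (o : ℤ × ℤ) (n : ℤ) : ι → ℝ := fun x =>
  if rr o (pos x) ≤ n then Φ (pos x) - Φ o else 0

/-- Equals 1 for `rr ≤ a`, 0 for `rr ≥ a + w`, linear between. -/
def tent (o : ℤ × ℤ) (a w : ℤ) (p : ℤ × ℤ) : ℝ :=
  max 0 (min 1 (((a + w - rr o p : ℤ) : ℝ) / (w : ℝ)))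

def Pcell (H : Matrix ι ι ℝ) (pos : ι → ℤ × ℤ) (ρ h : ℤ) (ε : ℝ) : Prop :=
  ∀ (o : ℤ × ℤ) (U : Finset ι) (c : ι → ℝ) (Φ : ℤ × ℤ → ℝ), Good H U c →
    bal pos o (ρ + h) ⊆ U → Lip Φ →
    ES H U c (bal pos o (ρ - h))
      (fun S => ∑ x ∈ bal pos o ρ, ee S (cutf pos Φ o (ρ + h)) x) ≤ ε * (2 * (ρ : ℝ) + 1) ^ 2

def ctr (o : ℤ × ℤ) (ρ : ℤ) (a : ℤ × ℤ) : ℤ × ℤ :=
  (o.1 + (2 * ρ + 1) * a.1, o.2 + (2 * ρ + 1) * a.2)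
def innr (pos : ι → ℤ × ℤ) (o : ℤ × ℤ) (ρ h : ℤ) (A : Finset (ℤ × ℤ)) : Finset ι :=
  A.biUnion fun a => bal pos (ctr o ρ a) (ρ - h)

/-- Inner band of the big cell. -/
def gam (pos : ι → ℤ × ℤ) (o : ℤ × ℤ) (ρ h : ℤ) : Finset ι := rng pos o (ρ - h) (ρ + h)
/-- Middle band of the big cell. -/
def oo (pos : ι → ℤ × ℤ) (o : ℤ × ℤ) (ρ h : ℤ) : Finset ι :=
  rng pos o (3 * ρ + 1 - h) (3 * ρ + 1 + h)
def phiN (pos : ι → ℤ × ℤ) (Φ : ℤ × ℤ → ℝ) (o : ℤ × ℤ) (ρ h : ℤ) : ι → ℝ := fun x =>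
  cutf pos Φ o (5 * ρ + 2 + h) x / (2 * ((5 * ρ + 2 + h : ℤ) : ℝ))
def psiC (pos : ι → ℤ × ℤ) (Φ : ℤ × ℤ → ℝ) (o : ℤ × ℤ) (ρ h : ℤ) : ι → ℝ := fun x =>
  phiN pos Φ o ρ h x * tent o (3 * ρ + 1 + h) (2 * ρ + 1 - 2 * h) (pos x)
def PsiR (pos : ι → ℤ × ℤ) (Φ : ℤ × ℤ → ℝ) (o : ℤ × ℤ) (ρ h : ℤ) (S : Mx ι) : ℝ :=
  (1 + FF S (psiC pos Φ o ρ h) + FF S (ind (gam pos o ρ h))) ^ 2
    + FF S (ind (gam pos o ρ h ∪ oo pos o ρ h)) ^ 2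
def CY (μ : ℝ) : ℝ := 3 + 7 * (2 * (1600 / μ ^ 2 + 400) ^ 2 + 140000)

def zz (X : Matrix ι ι ℂ) (u : ι → ℂ) (t : ι → ι → ℂ) (y : ι) : ℂ :=
  ∑ i, ∑ j, conj (u i) * X i j * t j y
def zt (X : Matrix ι ι ℂ) (u : ι → ℂ) (t : ι → ι → ℂ) (y : ι) : ℂ :=
  ∑ i, ∑ j, conj (t i y) * X i j * u j
def PN (X : Matrix ι ι ℂ) (u : ι → ℂ) (t : ι → ι → ℂ) : ℂ :=
  ((∑ i, ∑ j, conj (u i) * X i j * u j) + ∑ y, ∑ i, ∑ j, conj (t i y) * X i j * t j y) / 2 + 1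
def DN (X : Matrix ι ι ℂ) (u : ι → ℂ) (t : ι → ι → ℂ) : ℂ :=
  PN X u t ^ 2 - ∑ y, zz X u t y * zt X u t y

/-- Resolvent of `H + diag c` at `z`. -/
def Gz (H : Matrix ι ι ℝ) (c : ι → ℝ) (z : ℂ) : Matrix ι ι ℂ :=
  (Kgen H fun x => (c x : ℂ) - z)⁻¹
def cor (H : Matrix ι ι ℝ) (w : ι → ℝ) (x : ι) (c : ι → ℝ) (z : ℂ) : ℝ≥0∞ :=
  ∑ y, ENNReal.ofReal
    (w y * ‖Gz H c z y x / Gz H c z x x‖ ^ (1 / 2 : ℝ) * ((Gz H c z x x).im / Real.pi))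
def Qhat (H : Matrix ι ι ℝ) (w : ι → ℝ) (x : ι) (T : ℝ) (c : ι → ℝ) : ℝ≥0∞ :=
  liminf (fun m : ℕ => ∫⁻ E in Set.Ioo (-T) T, cor H w x c ((E : ℂ) + I / ((m : ℂ) + 1))) atTop

/-- A complete orthonormal eigensystem of a real matrix. -/
structure Eig (A : Matrix ι ι ℝ) (v : ι → ι → ℝ) (lam : ι → ℝ) : Prop where
  orth : ∀ k k', ∑ y, v k y * v k' y = if k = k' then 1 else 0
  comp : ∀ x y, ∑ k, v k x * v k y = if x = y then 1 else 0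
  eig : ∀ k x, ∑ y, A x y * v k y = lam k * v k x

def prj (v : ι → ι → ℝ) (lam : ι → ℝ) (E : ℝ) (y x : ι) : ℝ :=
  ∑ k, if lam k = E then v k y * v k x else 0
def Qeig (v : ι → ι → ℝ) (lam : ι → ℝ) (w : ι → ℝ) (x : ι) (T : ℝ) : ℝ :=
  ∑ k, if |lam k| < T then
    v k x ^ 2 * ∑ y, w y * |prj v lam (lam k) y x / prj v lam (lam k) x x| ^ (1 / 2 : ℝ) else 0

/-- The operator with potential `V` on the plane lattice has a dense span of eigenvectors. -/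
def PurePoint (V : ℤ × ℤ → ℝ) : Prop :=
  Dense ((Submodule.span ℂ {ψ : lp (fun _ : ℤ × ℤ => ℂ) 2 | ∃ E : ℝ, ∀ p : ℤ × ℤ,
    ψ (p.1 + 1, p.2) + ψ (p.1 - 1, p.2) + ψ (p.1, p.2 + 1) + ψ (p.1, p.2 - 1)
      + (V p : ℂ) * ψ p = (E : ℂ) * ψ p} : Submodule ℂ (lp (fun _ : ℤ × ℤ => ℂ) 2)) :
    Set (lp (fun _ : ℤ × ℤ => ℂ) 2))

def box (n : ℕ) : Finset (ℤ × ℤ) := Finset.Icc (-(n : ℤ)) n ×ˢ Finset.Icc (-(n : ℤ)) n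
def H0 (γ : ℝ) (n : ℕ) : Matrix (box n) (box n) ℝ := fun x y =>
  if |x.1.1 - y.1.1| + |x.1.2 - y.1.2| = 1 then 1 / γ else 0
def wt (x p : ℤ × ℤ) : ℝ := (1 + (rr x p : ℝ)) ^ (3 / 4 : ℝ)
def Qn (γ : ℝ) (x : ℤ × ℤ) (T : ℕ) (n : ℕ) (V : ℤ × ℤ → ℝ) : ℝ≥0∞ :=
  if h : x ∈ box n then
    Qhat (H0 γ n) (fun y => wt x y.1) ⟨x, h⟩ ((T : ℝ) + 1) (fun y => V y.1 / γ) else 0
def Gset (γ : ℝ) : Set (ℤ × ℤ → ℝ) :=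
  {V | ∀ (x : ℤ × ℤ) (T : ℕ), liminf (fun n => Qn γ x T n V) atTop < ⊤}

end

end Vale.Agent.P365
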